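import Vale.Agent.P011UO.Defs
import Vale.Agent.P011UV1.Defs
import Vale.Agent.P011UQ.Tz
import Vale.Agent.P011US.Sub
import Vale.Agent.P011LQ.Sub

/-!
The twisted action in the vector representation.
-/

set_option autoImplicit false
set_option linter.all false

namespace Vale.Agent.P011UO

open Matrix Vale.Agent.P011L Vale.Agent.P011U Vale.Agent.P011LQ Vale.Agent.P011LD QuadraticMap
  Vale.Agent.P011UV1 Vale.Agent.P011UQ
open Vale.Agent.P183CH hiding ev

section
variable {K : Type} [Field K] {J : Type} [Fintype J] [DecidableEq J] {Q : QuadraticForm K (J → K)}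
  {x y x' y' : J → K}

variable (Q) in
/-- the rotation in a hyperbolic plane -/
def rt (x y : J → K) (t : Kˣ) (v : J → K) : J → K :=
  v + (((t : K) - 1) * polar Q y v) • x + ((((t⁻¹ : Kˣ) : K) - 1) * polar Q x v) • y

theorem rt_swap (t : Kˣ) (v : J → K) : rt Q y x t v = rt Q x y t⁻¹ v := by
  rw [rt, rt, inv_inv, add_right_comm]

theorem pol_sim {B : Matrix J J K} {l : K} (h : ∀ v, Q (B *ᵥ v) = l * Q v) (v w : J → K) :
    polar Q (B *ᵥ v) (B *ᵥ w) = l * polar Q v w := by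
  simp only [polar, ← mulVec_add, h]
  ring

theorem rt_sim {B : Matrix J J K} {l a b : K} (h : ∀ v, Q (B *ᵥ v) = l * Q v) (l0 : l ≠ 0)
    (p : polar Q x y = 1) (p' : polar Q x' y' = 1) (hx : B *ᵥ x = a • x') (hy : B *ᵥ y = b • y')
    (t : Kˣ) (v : J → K) : B *ᵥ rt Q x y t v = rt Q x' y' t (B *ᵥ v) := by
  have e := pol_sim h x y
  have e1 := pol_sim h x v
  have e2 := pol_sim h y v
  rw [hx, hy, polar_smul_left, polar_smul_right, p, p'] at e
  rw [hx, polar_smul_left] at e1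
  rw [hy, polar_smul_left] at e2
  simp only [smul_eq_mul, mul_one] at e e1 e2
  have c1 : polar Q x' (B *ᵥ v) = polar Q x v * b :=
    mul_left_cancel₀ (left_ne_zero_of_mul (e ▸ l0)) (by rw [e1, ← e]; ring)
  have c2 : polar Q y' (B *ᵥ v) = polar Q y v * a :=
    mul_left_cancel₀ (right_ne_zero_of_mul (e ▸ l0)) (by rw [e2, ← e]; ring)
  simp only [rt, mulVec_add, mulVec_smul, hx, hy, smul_smul, c1, c2, mul_assoc]

theorem rt_eq {M : Matrix J J K} {c : Kˣ} (h : Hp Q x y) (hx : M *ᵥ x = (c : K) • x)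
    (hy : M *ᵥ y = ((c⁻¹ : Kˣ) : K) • y) (hz : ∀ z, polar Q x z = 0 → polar Q y z = 0 → M *ᵥ z = z)
    (v : J → K) : M *ᵥ v = rt Q x y c v := by
  have := hz (v - polar Q y v • x - polar Q x v • y)
    (by simp [polar_sub_right, polar_smul_right, polar_self, h.1, h.2.2])
    (by simp [polar_sub_right, polar_smul_right, polar_self, h.2.1, polar_comm Q y x, h.2.2])
  rw [mulVec_sub, mulVec_sub, mulVec_smul, mulVec_smul, hx, hy, sub_eq_iff_eq_add,
    sub_eq_iff_eq_add] at this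
  rw [this, rt]
  module

theorem gl_ext {M N : GL J K} (h : ∀ v, M.1 *ᵥ v = N.1 *ᵥ v) : M = N :=
  Units.ext (Matrix.ext fun a b => by simpa using congrFun (h (Pi.single b 1)) a)

end

variable {k K : Type} [Field k] [Field K] [Algebra k K] {n : ℕ} {D : Chev}
  {e : Fin D.R.r ≃ Fin (n + 1)} {ρ : D.grp K →* GL (I n) K}

theorem hp0 : Hp (qf K n) (ev K (.inl 0)) (ev K (.inr 0)) :=
  ⟨by simp [qf_apply, ev], by simp [qf_apply, ev], by rw [polar_ev]; simp [ev]⟩

theorem del_rt (t : Kˣ) (v : I n → K) :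
    (del t).1 *ᵥ v = rt (qf K n) (ev K (.inl 0)) (ev K (.inr 0)) t v := funext fun a => by
  rw [del_eq, dg_mulVec, rt, polar_ev, polar_ev]
  rcases a with a | a <;> by_cases h : a = 0 <;> simp [h, ev, Pi.single_apply] <;> ring

theorem del_inj {s t : Kˣ} (h : (del s : GL (I n) K) = del t) : s = t := Units.ext (by
  simpa [del_eq, dg_val] using congrArg (fun g : GL (I n) K => g.1 (.inl 0) (.inl 0)) h)

theorem qf_map (σ : K ≃ₐ[k] K) (v : I n → K) : qf K n (σ ∘ v) = σ (qf K n v) := by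
  simp [qf_apply]

theorem ev_map (σ : K ≃ₐ[k] K) (a : I n) : σ ∘ ev K a = ev K a := funext fun b => by
  simp [ev, Pi.single_apply]

theorem Y_ev (a b : Fin (n + 1)) (c : Fin (n + 1)) : Y K (.inl a) (.inl b) *ᵥ ev K (.inl c) =
    if b = c then ev K (.inl a) else 0 := funext fun i => by
  by_cases h : b = c <;> simp [Y, ev, single_apply, Pi.single_apply, h, eq_comm]

theorem g_ind {S : Subgroup (D.grp K)} (h : ∀ i t, (GG D K).x (D.R.α i) t ∈ S ∧
    (GG D K).x (-D.R.α i) t ∈ S) (g : D.grp K) : g ∈ S :=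
  (Subgroup.closure_le S).2 (by
    rintro _ ⟨i, t, rfl | rfl⟩
    exacts [(h i t).1, (h i t).2]) (GG_ok.gen.ge (Subgroup.mem_top g))

variable (h : VP e ρ)
include h

theorem om_cen {s : Kˣ} (hs : s ^ 2 = 1) (g : D.grp K) : om e s * g = g * om e s :=
  g_ind (S := Subgroup.centralizer {om e s}) (fun i t => by
    have := (h.oms s).2 i t
    simp only [hs, dc, ite_self, Units.val_one, one_mul, inv_one, mul_one, id,
      Equiv.Perm.one_apply, mul_inv_eq_iff_eq_mul] at this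
    exact ⟨fun _ e => e ▸ this.1, fun _ e => e ▸ this.2⟩) g _ rfl

theorem ker_eq {a b : D.grp K} (c : ρ a = ρ b) : ∃ s : Kˣ, s ^ 2 = 1 ∧ a = b * om e s := by
  obtain ⟨s, h1, h2⟩ := h.ker (b⁻¹ * a) 1 (by rw [map_mul, map_inv, c, inv_mul_cancel, map_one])
  exact ⟨s, h1.symm, by rw [← h2, mul_inv_cancel_left]⟩

theorem sq_eq {a b : D.grp K} (c : ρ a = ρ b) : a * a = b * b := by
  obtain ⟨s, h1, rfl⟩ := ker_eq h c
  rw [mul_assoc, ← mul_assoc (om e s), om_cen h h1, mul_assoc, ← map_mul, ← pow_two, h1, map_one,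
    mul_one]

theorem inj2 (h2 : (2 : K) = 0) {a b : D.grp K} (c : ρ a = ρ b) : a = b := by
  obtain ⟨s, h1, rfl⟩ := ker_eq h c
  have : (s : K) - 1 = 0 := pow_eq_zero_iff two_ne_zero |>.1 (by
    have : (s : K) ^ 2 = 1 := by rw [← Units.val_pow_eq_pow_val, h1, Units.val_one]
    linear_combination this + (1 - s) * h2)
  rw [show s = 1 from Units.ext (sub_eq_zero.1 this), map_one, mul_one]

theorem cen_of {g : D.grp K} {c : K} (hg : (ρ g).1 = c • 1) (x : D.grp K) : g * x = x * g := by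
  have a : ∀ x, ρ (g * x * g⁻¹) = ρ x := fun x => by
    rw [map_mul, map_mul, map_inv, mul_inv_eq_iff_eq_mul]
    exact Units.ext (by simp [hg])
  by_cases h2 : (2 : K) = 0
  · exact mul_inv_eq_iff_eq_mul.1 (inj2 h h2 (a x))
  haveI : NeZero (2 : K) := ⟨h2⟩
  have b : ∀ γ ∈ D.R.Φ, ∀ t, (GG D K).x γ t ∈ Subgroup.centralizer {g} := fun γ hγ t _ e => by
    have := sq_eq h (a ((GG D K).x γ (t / 2)))
    rw [← GG_ok.add γ hγ, add_halves, show ∀ y, g * y * g⁻¹ * (g * y * g⁻¹) = g * (y * y) * g⁻¹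
      from fun _ => by group, ← GG_ok.add γ hγ, add_halves] at this
    exact e ▸ mul_inv_eq_iff_eq_mul.1 this
  exact g_ind (fun i t => ⟨b _ ((Chev.R_ok D).simple i) t,
    b _ ((Chev.R_ok D).neg_mem ((Chev.R_ok D).simple i)) t⟩) x _ rfl

theorem ht0 (hn : 0 < n) (s : Fin D.R.r → Kˣ) :
    (ρ (GG_ok.hT s)).1 *ᵥ ev K (.inl 0) = (s (e.symm 0) : K) • ev K (.inl 0) := by
  induction s using Pi.mulSingle_induction with
  | one => simp
  | mul a b ha hb =>
    rw [map_mul, map_mul, Units.val_mul, ← mulVec_mulVec, hb, mulVec_smul, ha, smul_smul,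
      Pi.mul_apply, Units.val_mul, mul_comm]
  | mulSingle i t =>
    have a : ∀ t : Kˣ, (GG D K).h i t = (GG D K).x (D.R.α i) t * (GG D K).x (-D.R.α i) (-(t⁻¹ : Kˣ)) *
        (GG D K).x (D.R.α i) t * ((GG D K).x (D.R.α i) (1 : Kˣ) *
          (GG D K).x (-D.R.α i) (-((1 : Kˣ)⁻¹ : Kˣ)) * (GG D K).x (D.R.α i) (1 : Kˣ))⁻¹ := fun t => by
      rw [GG_ok.sl, GG_ok.sl, map_one, one_mul, mul_inv_cancel_right]
    rw [GG_ok.hT_single]
    by_cases c : i = e.symm 0
    · subst c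
      let w : Fin (n + 1) := ⟨1, by omega⟩
      have p : pp (e (e.symm 0)) = .inl 0 ∧ qq (e (e.symm 0)) = .inl w := by
        simp [pp, qq, hn, w]
      have w0 : 0 ≠ w := by simp [w, Fin.ext_iff]
      have b : ∀ t : Kˣ, (ρ ((GG D K).x (D.R.α (e.symm 0)) t * (GG D K).x (-D.R.α (e.symm 0))
          (-(t⁻¹ : Kˣ)) * (GG D K).x (D.R.α (e.symm 0)) t)).1 *ᵥ ev K (.inl w) =
            (t : K) • ev K (.inl 0) := fun t => by
        simp only [map_mul, Units.val_mul, ← mulVec_mulVec, h.vr.x, h.vr.y, p.1, p.2,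
          add_mulVec, one_mulVec, smul_mulVec, mulVec_add, mulVec_smul, Y_ev]
        simp [w0, w0.symm, smul_smul, Y_ev, mulVec_neg]
      have b1 := b 1
      rw [Units.val_one (α := K), one_smul] at b1
      rw [a, map_mul, Units.val_mul, ← mulVec_mulVec, Pi.mulSingle_eq_same, ← b t]
      refine congrArg _ ?_
      rw [Units.val_one (α := K), ← b1, mulVec_mulVec, ← Units.val_mul,
        ← map_mul, inv_mul_cancel, map_one, Units.val_one, one_mulVec]
    · rw [Pi.mulSingle_eq_of_ne' c, Units.val_one, one_smul]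
      have b : ∀ t, (GG D K).x (D.R.α i) t ∈ LJ (GG D K) {j | j ≠ e.symm 0} ∧
          (GG D K).x (-D.R.α i) t ∈ LJ (GG D K) {j | j ≠ e.symm 0} := fun t => by
        rw [LJ_eq (Chev.R_ok D) GG_ok]
        exact ⟨Subgroup.subset_closure ⟨i, c, t, .inl rfl⟩, Subgroup.subset_closure ⟨i, c, t, .inr rfl⟩⟩
      exact ((h.st _).2 (a t ▸ mul_mem (mul_mem (mul_mem (b _).1 (b _).2) (b _).1)
        (inv_mem (mul_mem (mul_mem (b _).1 (b _).2) (b _).1)))).1

end Vale.Agent.P011UO
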