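import Vale.Agent.P011U.IF5
import Vale.Agent.P011LQ.Alg

/-!
Type `D` of odd rank: the statements of the pieces of the descent.
-/

set_option autoImplicit false
set_option linter.all false

namespace Vale.Agent.P011UO

open Matrix Vale.Agent.P011L Vale.Agent.P011U Vale.Agent.P011LQ Vale.Agent.P011LD QuadraticMap

section

variable {k K : Type} [Field k] [Field K] [Algebra k K] {I : Type} [Fintype I] [DecidableEq I]
  (Q : QuadraticForm K (I → K)) (A : (K ≃ₐ[k] K) → GL I K)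

/-- The scalar cocycle of the projective action is a coboundary. -/
def Cob : Prop := ∃ μ : (K ≃ₐ[k] K) → Kˣ,
  (∀ σ τ, (μ (σ * τ) : K) • ((A σ).1 * (A τ).1.map σ) = (μ σ * σ (μ τ) : K) • (A (σ * τ)).1) ∧
    Op ⊤ fun τ => (A τ).1 = (μ τ : K) • 1

/-- hyperbolic pairs -/
def Hp (x y : I → K) : Prop := Q x = 0 ∧ Q y = 0 ∧ polar Q x y = 1

/-- `σ` maps the line of `x` to the line of `y` -/
def Ln (σ : K ≃ₐ[k] K) (x y : I → K) : Prop := ∃ c : K, (A σ).1 *ᵥ (σ ∘ x) = c • y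

/-- the pair of lines is stable -/
def St (x y : I → K) : Prop := ∀ σ, (Ln A σ x x ∧ Ln A σ y y) ∨ (Ln A σ x y ∧ Ln A σ y x)

/-- the rational isometries -/
def Ri (M : GL I K) : Prop := M.1 ∈ A0 A ∧ ∀ x, Q (M.1 *ᵥ x) = Q x

/-- the rational vectors -/
def io {L : IntermediateField k K} (g : GL I K) (v : I → L) : I → K := g.1 *ᵥ fun i => (v i : K)

/-- the stabiliser of two vectors -/
def Sb {G : Type} [Group G] (ρ : G →* GL I K) (x y : I → K) : Subgroup G where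
  carrier := {g | (ρ g).1 *ᵥ x = x ∧ (ρ g).1 *ᵥ y = y}
  mul_mem' := fun {a b} h h' => by
    simp only [Set.mem_setOf_eq, map_mul, Units.val_mul, ← mulVec_mulVec, h.1, h.2, h'.1, h'.2,
      and_self]
  one_mem' := by simp
  inv_mem' := fun {a} h => by
    have e : ∀ v, (ρ a).1 *ᵥ v = v → (ρ a⁻¹).1 *ᵥ v = v := fun v e => by
      rw [← e, mulVec_mulVec, ← Units.val_mul, ← map_mul, inv_mul_cancel, map_one, Units.val_one,
        one_mulVec, e]
    exact ⟨e _ h.1, e _ h.2⟩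

/-- `Γ` is a Clifford group with the vector representation `r` and the spinor norm `s`, whose kernel
is the product of `G` and of the central subgroup `Z` -/
structure Sn {G Γ : Type} [Group G] [Group Γ] (j : G →* Γ) (r : Γ →* GL I K) (s : Γ →* kˣ)
    (Z : Subgroup Γ) : Prop where
  ri : ∀ x, Ri Q A (r x)
  zc : Z ≤ Subgroup.center Γ
  zr : ∀ c ∈ Z, r c = 1 ∧ s c = 1
  zj : ∀ g, j g ∈ Z → g = 1
  sj : ∀ g, s (j g) = 1
  dec : ∀ x, s x = 1 → ∃ g, ∃ c ∈ Z, x = j g * c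
  sq : ∀ t : kˣ, ∃ x, r x = 1 ∧ s x = t ^ 2
  rot : ∀ (M : GL I K) (x y : I → K) (c : Kˣ) (a : kˣ), Ri Q A M → Hp Q x y → St A x y →
    M.1 *ᵥ x = (c : K) • x → M.1 *ᵥ y = ((c⁻¹ : Kˣ) : K) • y →
    (∀ z, polar Q x z = 0 → polar Q y z = 0 → M.1 *ᵥ z = z) →
    algebraMap k K a = 2 + c + (c⁻¹ : Kˣ) → ∃ x, r x = M ∧ s x = a
  cen : ∀ g, (r (j g)).1 = 1 ∨ (r (j g)).1 = -1 → g ∈ Subgroup.center G
  dev : ∀ x y, Hp Q x y → St A x y → PSimple (Sb (r.comp j) x y)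

end

/-- the frame: projective actions by semilinear similitudes -/
def Fs (P : ∀ (k K : Type) [Field k] [Field K] [Algebra k K] (I : Type) [Fintype I] [DecidableEq I],
    QuadraticForm K (I → K) → ((K ≃ₐ[k] K) → GL I K) → Prop) : Prop :=
  ∀ (k K : Type) [Field k] [Field K] [Algebra k K] [IsSepClosure k K] (I : Type) [Fintype I]
    [DecidableEq I] [Nonempty I] (Q : QuadraticForm K (I → K)) (A : (K ≃ₐ[k] K) → GL I K)
    (l : (K ≃ₐ[k] K) → K), (∀ v, (∀ w, polar Q v w = 0) → v = 0) → PA ⊤ 2 A l →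
      (∀ σ v, Q ((A σ).1 *ᵥ (σ ∘ v)) = l σ * σ (Q v)) → ¬Cob A → P k K I Q A

/-- DO2: descent to the quadratic extension. -/
def DO2 : Prop := Fs fun k K _ _ _ I _ _ Q A => ∀ L : IntermediateField k K,
  Module.finrank k L = 2 → Sp {σ | ∀ x ∈ L, σ x = x} A →
    ∃ (S : QJ k L (I → L)) (g : GL I K) (c : K), c ≠ 0 ∧ (∀ v, Q (io g v) = c * S.q v) ∧
      ∀ σ, ∃ d : K, d ≠ 0 ∧ (((∀ x ∈ L, σ x = x) ∧ (A σ).1 * g.1.map σ = d • g.1) ∨
        ((∀ x : L, σ x = S.σ x) ∧ ∀ v, (A σ).1 *ᵥ (σ ∘ io g v) = d • io g (S.J v)))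

/-- BQ1: projective actions of exponent two split over a totally imaginary quadratic extension. -/
def BQ1 : Prop := ∀ (k K : Type) [Field k] [Field K] [Algebra k K] [IsSepClosure k K], Glob k →
  ∀ (n : Type) [Fintype n] [DecidableEq n] [Nonempty n] (A : (K ≃ₐ[k] K) → GL n K) l,
    PA ⊤ 2 A l → ∃ L : IntermediateField k K, Module.finrank k L = 2 ∧ NoR L ∧
      Sp {σ | ∀ x ∈ L, σ x = x} A

/-- LIN: the linear algebra. -/
def LIN : Prop := Fs fun k K _ _ _ I _ _ Q A => Glob k → ∀ m, Odd m → 5 ≤ m →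
  Fintype.card I = 2 * m → ∀ (G Γ : Type) [Group G] [Group Γ] (j : G →* Γ) (r : Γ →* GL I K)
    (s : Γ →* kˣ) (Z : Subgroup Γ), Sn Q A j r s Z → PSimple G

end Vale.Agent.P011UO
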