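import Vale.Agent.P011UO.Plug
import Vale.Agent.P011UO2.Main
import Vale.Agent.P011UD5.Six
import Vale.Agent.P011UQ.Bqf
import Vale.Agent.P011UQ4.Main
import Vale.Agent.P011UQ5.Exq
import Vale.Agent.P011UQ6.Ldv
import Vale.Agent.P011UQ7.Twf

/-!
Type `D` of odd rank.
-/

set_option autoImplicit false
set_option linter.all false

namespace Vale.Agent.P011UO

theorem do0 : P011U.DO :=
  dO (P011UQ.bqf (P011UQ7.twf P011UQ6.ldv P011UQ4.lq2) P011UQ5.exq) P011UO2.do2 P011UD5.do6

end Vale.Agent.P011UO
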