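import Vale.Agent.P011UO.Sn
import Vale.Agent.P011UV1.Main
import Vale.Agent.P011UV4.Lin
import Vale.Agent.P011UV4.Psi

/-!
Type `D` of odd rank from the linear algebra.
-/

set_option autoImplicit false
set_option linter.all false

namespace Vale.Agent.P011UO

open Matrix Vale.Agent.P011L Vale.Agent.P011U Vale.Agent.P011LQ Vale.Agent.P011LD QuadraticMap
  Vale.Agent.P011UV1
open Vale.Agent.P183CH hiding ev

theorem do_lin (nfx : NFX) (d4 : P011UV4.DO4P) (lin : LIN) : DO := by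
  intro dev k K _ _ _ _ D hk hD T n e he hn h2 ht
  haveI := Glob.inf hk
  haveI : Infinite K := .of_injective _ (algebraMap k K).injective
  haveI : IsSepClosed K := IsSepClosure.sep_closed k
  obtain ⟨ρ, h⟩ := do1 D hD n e he hn K
  obtain ⟨g, c, π, nf⟩ := nfx k K D hD T
  obtain ⟨A, l, i, p, a⟩ := exists_im h (by omega) nf.1
  have dv : ∀ x y, Hp (qf K n) x y → St A x y → PSimple (Sb (ρ.comp T.fix.subtype) x y) := by
    intro x y hp s
    obtain ⟨y0, hx, hy⟩ := h.tr2 x y hp.1 hp.2.1 hp.2.2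
    have e1 : (LJ (GG D K) {j | j ≠ e.symm 0}).comap
        ((MulAut.conj y0).symm.toMonoidHom.comp T.fix.subtype) =
        Sb (ρ.comp T.fix.subtype) x y := Subgroup.ext fun g => st_LJ h i hx hy g.1
    exact e1 ▸ d4 dev k K D hk hD T n e he hn h2 y0 fun σ q hq => (st_LJ h i hx hy _).2
      (st_Sb h i hp s σ ((st_LJ h i hx hy _).1 (by simpa [mul_assoc] using hq)))
  obtain ⟨Γ, _, j, r, s, Z, sn⟩ : ∃ (Γ : Type) (_ : Group Γ) (j : T.fix →* Γ)
      (r : Γ →* GL (I n) K) (s : Γ →* kˣ) (Z : Subgroup Γ), Sn (qf K n) A j r s Z :=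
    (em ((2 : K) = 0)).elim (sn_two h i dv) (sn_odd h i dv)
  exact lin k K (I n) (qf K n) A l qf_nd (i.pa h) i.sim
    (fun cb => ht (tit_of h (by omega) hD nf i p a cb)) hk (n + 1) h2.add_one (by omega)
    (by simp [two_mul]) T.fix Γ j r s Z sn

/-- Type `D` of odd rank. -/
theorem do_of (nfx : NFX) (dg2 : DG2) (b : BQ1) (d2 : DO2) (d5 : DO5) (d6 : DO6) : DO :=
  do_lin nfx (P011UV4.do4p nfx dg2) (P011UV4.lin_of b d2 d5 d6)

end Vale.Agent.P011UO
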