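import Vale.Agent.P011UO.Main
import Vale.Agent.P011UB.Main
import Vale.Agent.P011UC.Tr
import Vale.Agent.P011UD.Aut
import Vale.Agent.P011UD5.Main
import Vale.Agent.P011UD6.St3
import Vale.Agent.P011UQ.Asm
import Vale.Agent.P011UQ74.Bqn

/-!
Type `D` of odd rank from the three remaining pieces.
-/

set_option autoImplicit false
set_option linter.all false

namespace Vale.Agent.P011UO

open Vale.Agent.P011U

theorem dO (f : P011UQ.BQF) (d2 : DO2) (d6 : DO6) : DO :=
  do_of (P011UC.nfx P011UB.aut) dg2 (P011UQ.bq_one P011UQ74.bqn f) d2 (P011UD5.do5 P011UD6.st3) d6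

end Vale.Agent.P011UO
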