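import Vale.Agent.P011UO.Tit
import Vale.Agent.P011UI.Exa

/-!
The Clifford group.
-/

set_option autoImplicit false
set_option linter.all false

namespace Vale.Agent.P011UO

open Matrix Vale.Agent.P011L Vale.Agent.P011U Vale.Agent.P011LQ Vale.Agent.P011LD QuadraticMap
  Vale.Agent.P011UV1 Vale.Agent.P011UQ
open Vale.Agent.P183CH hiding ev

variable {k K : Type} [Field k] [Field K] [Algebra k K] {n : ℕ} {D : Chev}
  {e : Fin D.R.r ≃ Fin (n + 1)} {ρ : D.grp K →* GL (I n) K} {T : Tw k (D.grp K)}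
  {A : (K ≃ₐ[k] K) → GL (I n) K} {l : (K ≃ₐ[k] K) → K} {x y : I n → K} {y0 : D.grp K}

theorem rt_map (σ : K ≃ₐ[k] K) (t : Kˣ) (v : I n → K) :
    σ ∘ rt (qf K n) x y t v = rt (qf K n) (σ ∘ x) (σ ∘ y) (um σ t) (σ ∘ v) := funext fun a => by
  simp [rt, polar_qf, um]

theorem um_sq (σ : K ≃ₐ[k] K) {s : Kˣ} {a : kˣ} (h : s ^ 2 = Units.map (algebraMap k K) a) :
    (um σ s / s) ^ 2 = 1 := by
  rw [div_pow, ← map_pow, h, div_eq_one]
  exact Units.ext (σ.commutes _)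

/-- the group of the rational isometries -/
def UU {J : Type} [Fintype J] [DecidableEq J] (Q : QuadraticForm K (J → K))
    (A : (K ≃ₐ[k] K) → GL J K) : Subgroup (GL J K) where
  carrier := {M | Ri Q A M}
  mul_mem' := fun {M N} a b => ⟨mul_mem a.1 b.1, fun x => by
    rw [Units.val_mul, ← mulVec_mulVec, a.2, b.2]⟩
  one_mem' := ⟨one_mem _, fun x => by rw [Units.val_one, one_mulVec]⟩
  inv_mem' := fun {M} a => ⟨fun σ => by
    have e : M.1.map σ * M⁻¹.1.map σ = 1 := by rw [← map_mul', Units.mul_inv, map_one']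
    rw [← M.inv_mul_cancel_left ((A σ).1 * _), ← Matrix.mul_assoc M.1, ← a.1 σ, Matrix.mul_assoc _ _
      (M⁻¹.1.map σ), e, Matrix.mul_one], fun x => by
    rw [← a.2, mulVec_mulVec, Units.mul_inv, one_mulVec]⟩

variable (h : VP e ρ) (i : Im ρ T A l)
include h

theorem cj_del (hx : (ρ y0).1 *ᵥ ev K (.inl 0) = x) (hy : (ρ y0).1 *ᵥ ev K (.inr 0) = y)
    (p : Hp (qf K n) x y) (t : Kˣ) (v : I n → K) :
    (ρ y0 * del t * (ρ y0)⁻¹).1 *ᵥ v = rt (qf K n) x y t v := by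
  rw [Units.val_mul, Units.val_mul, ← mulVec_mulVec, ← mulVec_mulVec, del_rt,
    rt_sim (l := 1) (a := 1) (b := 1) (fun v => by rw [h.iso, one_mul]) one_ne_zero hp0.2.2 p.2.2
      (by rw [hx, one_smul]) (by rw [hy, one_smul]), mulVec_mulVec, Units.mul_inv, one_mulVec]

include i

theorem ri_iff (g : D.grp K) : Ri (qf K n) A (ρ g) ↔ ∀ σ, ρ (T.a σ g) = ρ g :=
  ⟨fun r σ => mul_right_cancel (b := A σ) (Units.ext ((i.cj σ g).trans (r.1 σ))),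
    fun r => ⟨fun σ => by rw [← i.cj, r], h.iso g⟩⟩

theorem eqv (hx : (ρ y0).1 *ᵥ ev K (.inl 0) = x) (hy : (ρ y0).1 *ᵥ ev K (.inr 0) = y)
    (p : Hp (qf K n) x y) (s : St A x y) (σ : K ≃ₐ[k] K) : ∃ δ : ℤ, (δ = 1 ∨ δ = -1) ∧ ∀ t,
      ρ (T.a σ (y0 * om e t * y0⁻¹)) = ρ (y0 * om e (um σ t ^ δ) * y0⁻¹) := by
  have s1 : ∀ v, qf K n ((A σ).1 *ᵥ v) = l σ * qf K n v := fun v => by
    rw [show v = σ ∘ (σ.symm ∘ v) from funext fun _ => (σ.apply_symm_apply _).symm, i.sim,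
      qf_map σ]
  have p1 : polar (qf K n) (σ ∘ x) (σ ∘ y) = 1 := by
    simpa [polar_qf] using congrArg σ p.2.2
  have a : ∀ δ : ℤ, (∀ t v, (A σ).1 *ᵥ rt (qf K n) (σ ∘ x) (σ ∘ y) t v =
      rt (qf K n) x y (t ^ δ) ((A σ).1 *ᵥ v)) → ∀ t, ρ (T.a σ (y0 * om e t * y0⁻¹)) =
        ρ (y0 * om e (um σ t ^ δ) * y0⁻¹) := fun δ b t =>
    mul_right_cancel (b := A σ) (gl_ext fun v => by
      rw [Units.val_mul, i.cj, Units.val_mul, ← mulVec_mulVec, ← mulVec_mulVec,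
        show v = σ ∘ (σ.symm ∘ v) from funext fun _ => (σ.apply_symm_apply _).symm, ← map_mv]
      simp only [map_mul, map_inv, h.omr, cj_del h hx hy p]
      rw [rt_map, b, map_pow, ← zpow_natCast, ← zpow_natCast, ← _root_.zpow_mul,
        ← _root_.zpow_mul, mul_comm])
  rcases s σ with ⟨⟨a1, b1⟩, a2, b2⟩ | ⟨⟨a1, b1⟩, a2, b2⟩
  · exact ⟨1, .inl rfl, a 1 fun t v => by rw [rt_sim s1 (i.ne σ) p1 p.2.2 b1 b2, zpow_one]⟩
  · exact ⟨-1, .inr rfl, a (-1) fun t v => by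
      rw [rt_sim s1 (i.ne σ) p1 ((polar_comm _ _ _).trans p.2.2) b1 b2, rt_swap,
        _root_.zpow_neg_one]⟩

theorem st_LJ (hx : (ρ y0).1 *ᵥ ev K (.inl 0) = x) (hy : (ρ y0).1 *ᵥ ev K (.inr 0) = y)
    (g : D.grp K) : y0⁻¹ * g * y0 ∈ LJ (GG D K) {j | j ≠ e.symm 0} ↔ g ∈ Sb ρ x y := by
  have a : ∀ v, (ρ (y0⁻¹ * g * y0)).1 *ᵥ v = v ↔ (ρ g).1 *ᵥ (ρ y0).1 *ᵥ v = (ρ y0).1 *ᵥ v :=
    fun v => by
      rw [← (mulVec_injective_iff_isUnit.2 (ρ y0).isUnit).eq_iff, mulVec_mulVec, mulVec_mulVec,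
        ← Units.val_mul, ← Units.val_mul, ← map_mul, ← map_mul, mul_assoc, mul_inv_cancel_left]
  rw [← h.st, a, a, hx, hy]
  rfl

theorem st_Sb (p : Hp (qf K n) x y) (s : St A x y) (σ : K ≃ₐ[k] K) {g : D.grp K}
    (hg : g ∈ Sb ρ x y) : T.a σ g ∈ Sb ρ x y := by
  have a : ∀ u w : I n → K, u ≠ 0 → (ρ g).1 *ᵥ u = u → Ln A σ u w → (ρ (T.a σ g)).1 *ᵥ w = w :=
    fun u w u0 b ⟨c, hc⟩ => by
      have c0 : c ≠ 0 := fun c0 => u0 (funext fun j => σ.injective (by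
        rw [c0, zero_smul, ← mulVec_zero (A σ).1] at hc
        simpa using congrFun (mulVec_injective_iff_isUnit.2 (A σ).isUnit hc) j))
      refine smul_right_injective _ c0 ?_
      show c • _ = c • w
      rw [← mulVec_smul, ← hc, mulVec_mulVec, i.cj, ← mulVec_mulVec, ← map_mv, b]
  have x0 : x ≠ 0 := fun c => by simpa [c] using p.2.2
  have y0 : y ≠ 0 := fun c => by simpa [c] using p.2.2
  rcases s σ with ⟨a1, a2⟩ | ⟨a1, a2⟩
  exacts [⟨a _ _ x0 hg.1 a1, a _ _ y0 hg.2 a2⟩, ⟨a _ _ y0 hg.2 a2, a _ _ x0 hg.1 a1⟩]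

omit i in
theorem cen_fix (g : T.fix) (c : (ρ g.1).1 = 1 ∨ (ρ g.1).1 = -1) : g ∈ Subgroup.center T.fix :=
  Subgroup.mem_center_iff.2 fun x => Subtype.ext (c.elim
    (fun c => cen_of h (c := 1) (by rw [c, one_smul]) _)
    fun c => cen_of h (c := -1) (by rw [c, neg_smul, one_smul]) _).symm

variable (dev : ∀ x y, Hp (qf K n) x y → St A x y → PSimple (Sb (ρ.comp T.fix.subtype) x y))
include dev

theorem sn_odd [IsSepClosed K] (h2 : (2 : K) ≠ 0) : ∃ (Γ : Type) (_ : Group Γ) (j : T.fix →* Γ)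
    (r : Γ →* GL (I n) K) (s : Γ →* kˣ) (Z : Subgroup Γ), Sn (qf K n) A j r s Z := by
  let Γ : Subgroup (D.grp K × Kˣ × kˣ) :=
    { carrier := {x | x.2.1 ^ 2 = Units.map (algebraMap k K) x.2.2 ∧
        ∀ σ, T.a σ x.1 = x.1 * om e (um σ x.2.1 / x.2.1)}
      mul_mem' := fun {a b} u v => ⟨by simp only [Prod.snd_mul, Prod.fst_mul, mul_pow, u.1, v.1,
        map_mul], fun σ => by
          simp only [Prod.snd_mul, Prod.fst_mul, map_mul, u.2, v.2]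
          rw [mul_assoc, ← mul_assoc (om e _), om_cen h (um_sq σ u.1), mul_div_mul_comm, map_mul]
          simp only [mul_assoc]⟩
      one_mem' := ⟨by simp, fun σ => by simp⟩
      inv_mem' := fun {a} u => ⟨by simp only [Prod.snd_inv, Prod.fst_inv, inv_pow, u.1, map_inv],
        fun σ => by
          simp only [Prod.snd_inv, Prod.fst_inv, map_inv, u.2]
          rw [← om_cen h (um_sq σ u.1), _root_.mul_inv_rev, ← map_inv, inv_div, inv_div_inv]⟩ }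
  let j : T.fix →* Γ := (T.fix.subtype.prod 1).codRestrict Γ fun g =>
    ⟨by simp, fun σ => by simpa using g.2 σ⟩
  let s : Γ →* kˣ := (MonoidHom.snd _ _).comp ((MonoidHom.snd _ _).comp Γ.subtype)
  let f : Γ →* D.grp K := (MonoidHom.fst _ _).comp Γ.subtype
  haveI : NeZero (2 : K) := ⟨h2⟩
  have sq : ∀ c : Kˣ, ∃ u : Kˣ, u ^ 2 = c := fun c => by
    obtain ⟨z, hz⟩ := IsSepClosed.exists_eq_mul_self (c : K)
    exact ⟨Units.mk0 z (left_ne_zero_of_mul (hz ▸ c.ne_zero)), Units.ext (by simp [pow_two, hz])⟩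
  refine ⟨Γ, inferInstance, j, ρ.comp f, s, f.ker ⊓ s.ker, fun x => (ri_iff h i _).2 fun σ => ?_,
    fun c hc => Subgroup.mem_center_iff.2 fun x => Subtype.ext (Prod.ext ?_ (mul_comm _ _)),
    fun c hc => ⟨(congrArg ρ hc.1).trans (map_one ρ), hc.2⟩, fun g hg => Subtype.ext hg.1,
    fun _ => rfl, fun x hx => ?_, fun t => ⟨⟨(1, Units.map (algebraMap k K) t, t ^ 2),
      (map_pow _ _ _).symm, fun σ => ?_⟩, map_one ρ, rfl⟩,
    fun M x y c a r p st hx hy hz ha => ?_, cen_fix h, dev⟩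
  · show ρ (T.a σ x.1.1) = ρ x.1.1
    rw [x.2.2, map_mul, h.omr, um_sq σ x.2.1, map_one, mul_one]
  · have : c.1.1 = 1 := hc.1
    simp [this]
  · have a : ∀ σ : K ≃ₐ[k] K, um σ x.1.2.1 / x.1.2.1 = 1 := fun σ => by
      have b := congrArg Units.val x.2.1
      rw [show x.1.2.2 = 1 from hx, map_one, Units.val_pow_eq_pow_val, Units.val_one,
        sq_eq_one_iff] at b
      exact div_eq_one.2 (Units.ext (show σ _ = _ by rcases b with b | b <;> simp [b]))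
    refine ⟨⟨x.1.1, fun σ => by rw [x.2.2, a, map_one, mul_one]⟩,
      ⟨(1, x.1.2), x.2.1, fun σ => by simp [a]⟩, ⟨rfl, hx⟩, Subtype.ext (by simp [j])⟩
  · rw [show um σ (Units.map (algebraMap k K) t) = Units.map (algebraMap k K) t from
      Units.ext (σ.commutes _)]
    simp
  obtain ⟨y0, h1, h3⟩ := h.tr2 x y p.1 p.2.1 p.2.2
  obtain ⟨s0, rfl⟩ := sq c
  obtain ⟨u, hu⟩ := sq s0
  have hM : ρ (y0 * om e s0 * y0⁻¹) = M := gl_ext fun v => by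
    rw [map_mul, map_mul, map_inv, h.omr, cj_del h h1 h3 p, rt_eq p hx hy hz]
  have a2 : ((s0 : K) + (s0⁻¹ : Kˣ)) ^ 2 = algebraMap k K a := by
    rw [ha]
    simp only [Units.val_pow_eq_pow_val, Units.val_inv_eq_inv_val]
    field_simp
    ring
  have a0 : (s0 : K) + (s0⁻¹ : Kˣ) ≠ 0 := fun c => by
    rw [c] at a2
    simpa using a2.symm
  refine ⟨⟨(y0 * om e s0 * y0⁻¹, Units.mk0 _ a0, a), Units.ext a2, fun σ => ?_⟩, hM, rfl⟩
  obtain ⟨δ, hδ, b⟩ := eqv h i h1 h3 p st σ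
  have b1 := sq_eq h (b u)
  have b2 : ∀ a b : D.grp K, y0 * a * y0⁻¹ * (y0 * b * y0⁻¹) = y0 * (a * b) * y0⁻¹ :=
    fun _ _ => by group
  rw [← map_mul, b2, b2, ← map_mul, ← map_mul, ← mul_zpow, ← map_mul, ← pow_two, hu] at b1
  have b3 := (ri_iff h i _).1 (hM ▸ r) σ
  rw [b1] at b3
  simp only [map_mul, mul_left_inj, mul_right_inj, h.omr] at b3
  have b4 : (um σ s0 ^ δ / s0) ^ 2 = 1 := by rw [div_pow, del_inj b3, div_self']
  have b5 : um σ (Units.mk0 _ a0) / Units.mk0 _ a0 = um σ s0 ^ δ / s0 := by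
    have c1 : σ (s0 : K) + (σ (s0 : K))⁻¹ = (um σ s0 ^ δ : Kˣ) + ((um σ s0 ^ δ)⁻¹ : Kˣ) := by
      rcases hδ with rfl | rfl <;> simp [um, add_comm]
    generalize um σ s0 ^ δ = w at b4 c1 ⊢
    obtain ⟨ε, rfl⟩ : ∃ ε, w = ε * s0 := ⟨_, (div_mul_cancel _ _).symm⟩
    rw [mul_div_cancel_right] at b4 ⊢
    refine div_eq_iff_eq_mul.2 (Units.ext ?_)
    rw [mul_inv, inv_eq_of_mul_eq_one_right ((pow_two ε).symm.trans b4)] at c1
    simpa [um, mul_add] using c1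
  show T.a σ (y0 * om e s0 * y0⁻¹) = y0 * om e s0 * y0⁻¹ * om e (um σ (Units.mk0 _ a0) / _)
  rw [b1, b5, mul_assoc _ y0⁻¹, ← om_cen h b4, ← mul_assoc, mul_assoc y0 (om e s0), ← map_mul,
    mul_div_cancel]

theorem sn_two (h2 : (2 : K) = 0) : ∃ (Γ : Type) (_ : Group Γ) (j : T.fix →* Γ)
    (r : Γ →* GL (I n) K) (s : Γ →* kˣ) (Z : Subgroup Γ), Sn (qf K n) A j r s Z := by
  have nm : ∀ (t : Kˣ) g, ∃ g', ρ g' = del t * ρ g * (del t)⁻¹ := fun t g => by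
    obtain ⟨ψ, -, -, -, hψ⟩ := P011UI.exists_dg (D := D) (K := K) (dc e t)
    exact ⟨_, h.dl ψ.toMonoidHom t ⟨fun _ _ => rfl, fun i u => by
      rw [one_mul, one_mul, inv_one, mul_one, mul_one]
      exact hψ i u⟩ g⟩
  let ι : kˣ →* GL (I n) K := del.comp (Units.map (algebraMap k K))
  let Γ : Subgroup (GL (I n) K × kˣ) :=
    { carrier := {x | x.1 ∈ UU (qf K n) A ∧ ∃ g, x.1 = ρ g * ι x.2}
      mul_mem' := fun {a b} ⟨u, g, hg⟩ ⟨v, g', hg'⟩ => ⟨mul_mem u v, by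
        obtain ⟨g1, h1⟩ := nm (Units.map (algebraMap k K) a.2) g'
        exact ⟨g * g1, by simp [hg, hg', h1, ι, mul_assoc]⟩⟩
      one_mem' := ⟨one_mem _, 1, by simp⟩
      inv_mem' := fun {a} ⟨u, g, hg⟩ => ⟨inv_mem u, by
        obtain ⟨g1, h1⟩ := nm (Units.map (algebraMap k K) a.2)⁻¹ g⁻¹
        exact ⟨g1, by simp [hg, h1, ι, mul_assoc]⟩⟩ }
  let j : T.fix →* Γ := ((ρ.comp T.fix.subtype).prod 1).codRestrict Γ fun g =>
    ⟨(ri_iff h i _).2 fun σ => congrArg ρ (g.2 σ), g.1, by simp⟩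
  refine ⟨Γ, inferInstance, j, (MonoidHom.fst _ _).comp Γ.subtype,
    (MonoidHom.snd _ _).comp Γ.subtype, ⊥, fun x => x.2.1, bot_le,
    fun c hc => by simp [Subgroup.mem_bot.1 hc], fun g hg => Subtype.ext (inj2 h h2
      ((congrArg (·.1.1) (Subgroup.mem_bot.1 hg)).trans (map_one ρ).symm)), fun _ => rfl,
    fun ⟨⟨M, a⟩, r, g, hg⟩ hx => ?_, fun t => ⟨⟨(1, t ^ 2), one_mem _,
      (om e (Units.map (algebraMap k K) t))⁻¹, by simp [h.omr, ι]⟩, rfl, rfl⟩,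
    fun M x y c a r p st hx hy hz ha => ⟨⟨(M, a), r, ?_⟩, rfl, rfl⟩, cen_fix h, dev⟩
  · obtain rfl : a = 1 := hx
    obtain rfl : M = ρ g := by simpa using hg
    exact ⟨⟨g, fun σ => inj2 h h2 ((ri_iff h i _).1 r σ)⟩, 1, one_mem _, by rw [mul_one]; rfl⟩
  obtain ⟨y0, h1, h3⟩ := h.tr2 x y p.1 p.2.1 p.2.2
  obtain ⟨g1, h4⟩ := nm c y0⁻¹
  have a2 : (c : K) * (1 + (c⁻¹ : Kˣ)) ^ 2 = algebraMap k K a := by
    rw [ha, Units.val_inv_eq_inv_val]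
    field_simp
    ring
  have a0 : (1 : K) + (c⁻¹ : Kˣ) ≠ 0 := fun c => by
    rw [c] at a2
    simpa using a2.symm
  refine ⟨y0 * g1 * (om e (Units.mk0 _ a0))⁻¹, gl_ext fun v => ?_⟩
  rw [rt_eq p hx hy hz, ← cj_del h h1 h3 p, show ι a = del (Units.mk0 _ a0 ^ 2 * c) from
    congrArg del (Units.ext (a2.symm.trans (mul_comm _ _)))]
  simp [h4, h.omr, mul_assoc]

end Vale.Agent.P011UO
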