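import Vale.Agent.P011UO.Act

/-!
The projective action and the Tits algebra of the first node.
-/

set_option autoImplicit false
set_option linter.all false

namespace Vale.Agent.P011UO

open Matrix Vale.Agent.P011L Vale.Agent.P011U Vale.Agent.P011LQ Vale.Agent.P011LD QuadraticMap
  Vale.Agent.P011UV1 Vale.Agent.P011UQ
open Vale.Agent.P183CH hiding ev

variable {k K : Type} [Field k] [Field K] [Algebra k K] {n : ℕ} {D : Chev}
  {e : Fin D.R.r ≃ Fin (n + 1)} {ρ : D.grp K →* GL (I n) K} {T : Tw k (D.grp K)}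
  {A : (K ≃ₐ[k] K) → GL (I n) K} {l : (K ≃ₐ[k] K) → K} {g : (K ≃ₐ[k] K) → D.grp K}
  {c : (K ≃ₐ[k] K) → Fin D.R.r → Kˣ} {π : (K ≃ₐ[k] K) → Equiv.Perm (Fin D.R.r)}

variable (ρ T A l) in
/-- the action is given by semilinear similitudes -/
structure Im : Prop where
  cj : ∀ σ x, (ρ (T.a σ x)).1 * (A σ).1 = (A σ).1 * (ρ x).1.map σ
  ne : ∀ σ, l σ ≠ 0
  sim : ∀ σ v, qf K n ((A σ).1 *ᵥ (σ ∘ v)) = l σ * σ (qf K n v)

variable (h : VP e ρ)
include h

theorem exists_im (hn : 2 ≤ n) (s : ∀ σ, Std (GG D K) (T.a σ) σ (g σ) (c σ) (π σ)) :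
    ∃ A l, Im ρ T A l ∧ (∀ σ, π σ (e.symm 0) = e.symm 0) ∧
      ∀ σ, (A σ).1 *ᵥ ev K (.inl 0) = (ρ (g σ)).1 *ᵥ ev K (.inl 0) := by
  choose d μ b h1 h2 h3 using fun σ : K ≃ₐ[k] K =>
    h.std (T.a σ).toMonoidHom (σ : K →+* K) _ _ _ (s σ)
  let u : (K ≃ₐ[k] K) → GL (I n) K := fun σ => dg fun _ => (d σ (.inl 0))⁻¹
  have hu : ∀ σ, (u σ).1 = (((d σ (.inl 0))⁻¹ : Kˣ) : K) • 1 := fun σ =>
    (smul_one_eq_diagonal _).symm
  have t0 : ∀ σ, (if b σ then tau K else 1 : GL (I n) K).1 *ᵥ ev K (.inl 0) = ev K (.inl 0) :=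
    fun σ => by
      split_ifs
      · funext a
        rw [tau_mulVec, ev, Pi.single_apply, Pi.single_apply]
        refine if_congr (Equiv.swap_apply_eq_iff.trans ?_) rfl rfl
        rw [Equiv.swap_apply_of_ne_of_ne (by simp [Fin.ext_iff]; omega) (by simp)]
      · exact one_mulVec _
  refine ⟨fun σ => ρ (g σ) * dg (d σ) * (if b σ then tau K else 1) * u σ,
    fun σ => μ σ * (((d σ (.inl 0))⁻¹ : Kˣ) : K) ^ 2, ⟨fun σ x => ?_, fun σ => by simp,
      fun σ v => ?_⟩, fun σ => ?_, fun σ => ?_⟩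
  · have := congrArg Units.val (eq_mul_inv_iff_mul_eq.1 (h3 σ x))
    rw [Units.val_mul _ (u σ), hu, Matrix.mul_smul, Matrix.mul_smul, Matrix.smul_mul,
      Matrix.mul_one]
    exact congrArg _ this
  · simp only [Units.val_mul, ← mulVec_mulVec, h.iso, qf_dg (h1 σ), hu, smul_mulVec, one_mulVec]
    rw [← qf_map, mul_assoc, pow_two, ← smul_eq_mul (_ * _), ← QuadraticMap.map_smul]
    split_ifs
    · rw [qf_tau]
    · rw [Units.val_one, one_mulVec]
  · rw [h2]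
    split_ifs
    · exact Equiv.swap_apply_of_ne_of_ne (e.symm.injective.ne (by simp [Fin.ext_iff]; omega))
        (e.symm.injective.ne (by simp [Fin.ext_iff]; omega))
    · rfl
  · simp only [Units.val_mul, ← mulVec_mulVec, hu, smul_mulVec, one_mulVec, mulVec_smul, t0]
    rw [← mulVec_smul]
    refine congrArg _ (funext fun a => ?_)
    rw [Pi.smul_apply, dg_mulVec, ev, Pi.single_apply]
    split_ifs with c <;> simp [c]

theorem scal (σ : K ≃ₐ[k] K) {M : Matrix (I n) (I n) K}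
    (hM : ∀ x, M * (ρ x).1.map σ = (ρ x).1.map σ * M) : ∃ c : K, M = c • 1 :=
  h.schur M fun x => by
    have := hM (fm D (σ.symm : K →+* K) x)
    rwa [h.gal, show ((gm (σ.symm : K →+* K) (ρ x)).1).map σ = (ρ x).1 from
      Matrix.ext fun _ _ => σ.apply_symm_apply _] at this

theorem Im.mul (i : Im ρ T A l) (σ τ : K ≃ₐ[k] K) :
    ∃ c : K, (A σ).1 * (A τ).1.map σ = c • (A (σ * τ)).1 := by
  obtain ⟨c, hc⟩ := scal h (σ * τ) (M := (A (σ * τ))⁻¹.1 * ((A σ).1 * (A τ).1.map σ)) fun x => by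
    have a := i.cj (σ * τ) x
    have b := congrArg (·.map σ) (i.cj τ x)
    simp only [map_mul'] at b
    rw [Matrix.mul_assoc, Matrix.mul_assoc, show (ρ x).1.map (σ * τ : K ≃ₐ[k] K) =
      ((ρ x).1.map τ).map σ from rfl, ← b, ← Matrix.mul_assoc (A σ).1, ← i.cj, Matrix.mul_assoc,
      ← Matrix.mul_assoc, ← Matrix.mul_assoc (((ρ x).1.map τ).map σ)]
    refine congrArg (· * _) ?_
    rw [Units.inv_mul_eq_iff_eq_mul, ← Matrix.mul_assoc, Units.eq_mul_inv_iff_mul_eq]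
    exact (by rw [map_mul]; rfl : _ = _).trans a
  exact ⟨c, by rw [← Units.mul_inv_cancel_left (A (σ * τ)) (_ * _), hc, Matrix.mul_smul,
    Matrix.mul_one]⟩

theorem Im.pa (i : Im ρ T A l) : PA ⊤ 2 A l :=
  PA.of_form (qf K n) (fun c v => by rw [QuadraticMap.map_smul, pow_two, smul_eq_mul])
    (v₀ := ev K (.inl 0) + ev K (.inr 0)) (by simp [qf_apply, ev, Pi.single_apply])
    (fun σ _ => ⟨i.ne σ, i.sim σ⟩) (fun σ _ τ _ => i.mul h σ τ)
    ((tw_op T).imp fun τ _ a => scal h τ fun x => by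
      rw [← i.cj, a, h.gal]
      rfl)

theorem tit_of [Normal k K] (hn : 2 ≤ n) (hD : SC D) (nf : NF T g c π) (i : Im ρ T A l)
    (p : ∀ σ, π σ (e.symm 0) = e.symm 0)
    (a : ∀ σ, (A σ).1 *ᵥ ev K (.inl 0) = (ρ (g σ)).1 *ᵥ ev K (.inl 0)) (cb : Cob A) :
    Tit T (e.symm 0) := by
  obtain ⟨μ, h1, h2⟩ := cb
  obtain ⟨p0, z, -, co, hz, -, -⟩ := nf_co hD nf
  have e0 : ev K (.inl 0 : I n) ≠ 0 := fun c => by simpa [ev] using congrFun c (.inl 0)
  have k1 : ∀ σ τ, μ (σ * τ) * z σ τ (e.symm 0) = μ σ * um σ (μ τ) := fun σ τ => by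
    have b := congrArg (· *ᵥ ev K (.inl 0)) (h1 σ τ)
    have b1 : ((A σ).1 * (A τ).1.map σ) *ᵥ ev K (.inl 0) =
        (z σ τ (e.symm 0) : K) • (A (σ * τ)).1 *ᵥ ev K (.inl 0) := by
      rw [← mulVec_mulVec, ← ev_map σ, ← map_mv, a, map_mv, mulVec_mulVec, ← i.cj, ev_map,
        ← mulVec_mulVec, a, a, ← mulVec_smul, ← ht0 h (by omega), ← hz, tz, mulVec_mulVec,
        mulVec_mulVec, ← Units.val_mul, ← Units.val_mul, ← map_mul, ← map_mul, mul_assoc,
        mul_inv_cancel_left]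
    simp only [smul_mulVec, b1, smul_smul] at b
    refine Units.ext (smul_left_injective K (fun c => e0 ?_) b)
    rw [← one_mulVec (ev K _), ← (A (σ * τ)).inv_mul, ← mulVec_mulVec, c, mulVec_zero]
  have o1 : Op ⊤ fun τ => μ τ = 1 := (h2.and (near_op nf.2.2)).imp fun τ _ b => by
    have := a τ
    rw [b.1, ← one_mul τ, (b.2 1).1, nf.2.1, map_one, Units.val_one, smul_mulVec, one_mulVec,
      one_mul] at this
    exact Units.ext (smul_left_injective K e0 (this.trans (one_smul K _).symm))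
  have o2 : Op ⊤ fun τ => ∀ σ, μ (σ * τ) = μ σ := (o1.and co.op).imp fun τ _ b σ => by
    simpa [b.1, (b.2.2 σ).1] using k1 σ τ
  have o3 : Op ⊤ fun τ => ∀ σ, μ (τ * σ) = μ σ := ((o1.and co.op).and (op_all
    (P := fun (x : Kˣ) τ => τ (x : K) = x) o2 fun x => Op.fix ⊤ _)).imp fun τ _ b σ => by
      have := k1 τ σ
      rw [b.1.1, (b.1.2.2 σ).2, Pi.one_apply, mul_one, one_mul] at this
      exact this.trans (Units.ext (b.2 σ))
  have m1 : μ 1 = 1 := o1.elim fun _ b => b 1 trivial fun _ _ => rfl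
  refine ⟨fun σ => g σ * GG_ok.hT (Pi.mulSingle (e.symm 0) (μ σ)⁻¹), _, π,
    ⟨fun σ => std_mul GG_ok (Chev.R_ok D) (nf.1 σ) _, by simp [nf.2.1, m1], op_near
      (((near_op nf.2.2).and (o2.and o3)).imp fun τ _ b σ => by
        simp only [(b.1 σ).1, (b.1 σ).2, b.2.1, b.2.2, and_self])⟩, fun σ τ => ?_⟩
  have b := std_hT (ψ := (T.a σ).toMonoidHom) (σ := (σ : K →+* K)) GG_ok (nf.1 σ)
    (Pi.mulSingle (e.symm 0) (μ τ)⁻¹)
  have b1 : ∀ s : Fin D.R.r → Kˣ, s (e.symm 0) = 1 →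
      GG_ok.hT s ∈ TJ (GG D K) {j | j ≠ e.symm 0} := fun s hs => by
    rw [← Finset.univ_prod_mulSingle s, ← Subgroup.mem_comap]
    refine prod_mem fun j _ => ?_
    by_cases c : j = e.symm 0
    · rw [c, hs, Pi.mulSingle_one]
      exact one_mem _
    · exact Subgroup.subset_closure ⟨j, c, s j, GG_ok.hT_single _ _⟩
  have b2 : ∀ a b c d x y : D.grp K, (a * x)⁻¹ * (b * (c * d * c⁻¹)) * (c * y) =
      x⁻¹ * (a⁻¹ * b * c) * d * y := fun _ _ _ _ _ _ => by group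
  rw [tz, map_mul, show T.a σ (GG_ok.hT _) = _ from b, b2, ← tz, hz, ← map_inv, ← map_mul,
    ← map_mul, ← map_mul]
  refine b1 _ ?_
  simp only [Pi.mul_apply, Pi.inv_apply, Pi.mulSingle_eq_same, inv_inv,
    Equiv.Perm.inv_eq_iff_eq.2 (p σ).symm, k1, map_inv]
  simp [um]

end Vale.Agent.P011UO
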